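import Vale.Agent.Lib.P042.Digit

/-!
Arithmetic of the lowest differing digit for values of `f ^ μ * g`.
-/

namespace Vale.Agent.Lib.P042

open Finset Polynomial

/-- A squarefree modulus: divisibility by its powers is checked prime by prime. -/
theorem pow_dvd_of_primes {m : ℕ} (hm : Squarefree m) (j : ℕ) {y : ℤ}
    (h : ∀ p : ℕ, p.Prime → p ∣ m → (p : ℤ) ^ j ∣ y) : (m : ℤ) ^ j ∣ y := by
  have hprod : (∏ p ∈ m.primeFactors, ((p : ℤ) ^ j)) ∣ y := by
    apply Finset.prod_dvd_of_coprime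
    · intro p hp q hq hpq
      have hp' := Nat.prime_of_mem_primeFactors hp
      have hq' := Nat.prime_of_mem_primeFactors hq
      have : IsCoprime (p : ℤ) (q : ℤ) :=
        Nat.isCoprime_iff_coprime.mpr ((Nat.coprime_primes hp' hq').mpr hpq)
      exact this.pow
    · intro p hp
      exact h p (Nat.prime_of_mem_primeFactors hp) (Nat.dvd_of_mem_primeFactors hp)
  have hm' : (m : ℤ) ^ j = ∏ p ∈ m.primeFactors, ((p : ℤ) ^ j) := by
    rw [Finset.prod_pow]
    congr 1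
    conv_lhs => rw [← Nat.prod_primeFactors_of_squarefree hm]
    push_cast
    rfl
  rwa [hm']

theorem exists_prime_not_dvd {m : ℕ} (hm : Squarefree m) {y : ℤ} (h : ¬ (m : ℤ) ∣ y) :
    ∃ p : ℕ, p.Prime ∧ p ∣ m ∧ ¬ (p : ℤ) ∣ y := by
  by_contra hcon
  push Not at hcon
  apply h
  have := pow_dvd_of_primes hm 1 (y := y) (fun p hp hpm => by
    simpa using hcon p hp hpm)
  simpa using this

/-- Comparing the two decompositions of a number as a prime power times a cofactor. -/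
theorem pow_mul_cancel {p : ℕ} (hp : p.Prime) {a b : ℕ} {u w : ℤ}
    (hu : ¬ (p : ℤ) ∣ u) (hw : ¬ (p : ℤ) ∣ w)
    (h : (p : ℤ) ^ a * u = (p : ℤ) ^ b * w) : a = b ∧ u = w := by
  have hp0 : (p : ℤ) ≠ 0 := by exact_mod_cast hp.ne_zero
  rcases lt_trichotomy a b with hlt | heq | hgt
  · exfalso
    obtain ⟨c, rfl⟩ := Nat.exists_eq_add_of_lt hlt
    have : u = (p : ℤ) ^ (c + 1) * w := by
      apply mul_left_cancel₀ (pow_ne_zero a hp0)
      rw [h]
      ring
    apply hu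
    rw [this]
    exact Dvd.dvd.mul_right (dvd_pow_self _ (by omega)) _
  · subst heq
    exact ⟨rfl, mul_left_cancel₀ (pow_ne_zero a hp0) h⟩
  · exfalso
    obtain ⟨c, rfl⟩ := Nat.exists_eq_add_of_lt hgt
    have : w = (p : ℤ) ^ (c + 1) * u := by
      apply mul_left_cancel₀ (pow_ne_zero b hp0)
      rw [← h]
      ring
    apply hw
    rw [this]
    exact Dvd.dvd.mul_right (dvd_pow_self _ (by omega)) _

/-- The exact power of `p` in `F ^ μ * G` when `p` does not divide `G`. -/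
theorem valuation_split {p : ℕ} (hp : p.Prime) {μ i : ℕ} (hμ : 0 < μ) {F G w : ℤ}
    (hG : ¬ (p : ℤ) ∣ G) (hw : ¬ (p : ℤ) ∣ w)
    (hE : F ^ μ * G = (p : ℤ) ^ i * w) :
    ∃ v : ℕ, ∃ y : ℤ, F = (p : ℤ) ^ v * y ∧ ¬ (p : ℤ) ∣ y ∧ i = μ * v ∧ y ^ μ * G = w := by
  have hpp : Prime (p : ℤ) := Nat.prime_iff_prime_int.mp hp
  have hp0 : (p : ℤ) ≠ 0 := hpp.ne_zero
  have hw0 : w ≠ 0 := by
    rintro rfl
    exact hw (dvd_zero _)
  have hF : F ≠ 0 := by
    rintro rfl
    rw [zero_pow (by omega), zero_mul] at hE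
    have := mul_ne_zero (pow_ne_zero i hp0) hw0
    exact this hE.symm
  have hfin : FiniteMultiplicity (p : ℤ) F := by
    rw [Int.finiteMultiplicity_iff]
    refine ⟨?_, hF⟩
    simpa [Int.natAbs_natCast] using hp.ne_one
  obtain ⟨y, hy, hy'⟩ := hfin.exists_eq_pow_mul_and_not_dvd
  set v := multiplicity (p : ℤ) F with hv
  refine ⟨v, y, hy, hy', ?_⟩
  have hu : ¬ (p : ℤ) ∣ y ^ μ * G := by
    intro hd
    rcases hpp.dvd_or_dvd hd with h1 | h1
    · exact hy' (hpp.dvd_of_dvd_pow h1)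
    · exact hG h1
  have heq : (p : ℤ) ^ (μ * v) * (y ^ μ * G) = (p : ℤ) ^ i * w := by
    rw [← hE]
    conv_rhs => rw [hy]
    rw [mul_pow, ← pow_mul, mul_comm v μ]
    ring
  exact pow_mul_cancel hp hu hw heq |>.imp (fun h => h.symm) id


/-- The digit sets: position `0` is fixed, positions `μ * v` with `1 ≤ v ≤ V` lie in `R`,
all others are free. -/
def allowed (m μ V : ℕ) (R : Finset ℕ) (i : ℕ) : Finset ℕ :=
  if i = 0 then {0} else if μ ∣ i ∧ i / μ ≤ V then R else range m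

theorem allowed_subset {m μ V : ℕ} {R : Finset ℕ} (hm : 0 < m) (hR : R ⊆ range m) (i : ℕ) :
    allowed m μ V R i ⊆ range m := by
  unfold allowed
  split_ifs
  · simpa using hm
  · exact hR
  · exact Subset.refl _

/-- The data of the construction. -/
structure Setting (f g : ℤ[X]) (μ m : ℕ) (R : Finset ℕ) : Prop where
  hμ : 2 ≤ μ
  hm : Squarefree m
  hm2 : 2 ≤ m
  hg : ∀ p : ℕ, p.Prime → p ∣ m → ∀ t : ℤ, ¬ (p : ℤ) ∣ g.eval t
  hf : ∀ p : ℕ, p.Prime → p ∣ m → ∀ t : ℤ, (p : ℤ) ∣ f.eval t →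
    ¬ (p : ℤ) ∣ f.derivative.eval t
  hR0 : R ⊆ range m
  hR : ∀ r ∈ R, ∀ r' ∈ R, r ≠ r' → ∃ p : ℕ, p.Prime ∧ p ∣ m ∧ ¬ (p : ℤ) ∣ ((r : ℤ) - r') ∧
    ∀ t y : ℤ, (p : ℤ) ∣ f.eval t → ¬ (p : ℤ) ∣ y → ¬ (p : ℤ) ∣ ((r : ℤ) - r' - y ^ μ * g.eval t)

/-- The local analysis at a prime dividing the lowest digit difference. -/
theorem local_split {m μ i p : ℕ} (hm : Squarefree m) (hμ : 0 < μ) (hp : p.Prime) (hpm : p ∣ m)
    {F G e t : ℤ} (hG : ¬ (p : ℤ) ∣ G) (he : ¬ (p : ℤ) ∣ e)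
    (hE : F ^ μ * G = (m : ℤ) ^ i * (e + m * t)) :
    ∃ m' : ℕ, ¬ (p : ℤ) ∣ (m' : ℤ) ∧ ∃ v : ℕ, ∃ y : ℤ, F = (p : ℤ) ^ v * y ∧ ¬ (p : ℤ) ∣ y ∧
      i = μ * v ∧ y ^ μ * G = (m' : ℤ) ^ i * (e + m * t) ∧ (m : ℤ) = p * m' := by
  have hpp : Prime (p : ℤ) := Nat.prime_iff_prime_int.mp hp
  obtain ⟨m', rfl⟩ := hpm
  have hm' : ¬ (p : ℤ) ∣ (m' : ℤ) := by
    intro hd
    have hd' : p ∣ m' := by exact_mod_cast hd
    obtain ⟨c, rfl⟩ := hd'
    have := hm p ⟨c, by ring⟩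
    exact hp.not_isUnit this
  have hw : ¬ (p : ℤ) ∣ (m' : ℤ) ^ i * (e + ((p * m' : ℕ) : ℤ) * t) := by
    intro hd
    rcases hpp.dvd_or_dvd hd with h1 | h1
    · exact hm' (hpp.dvd_of_dvd_pow h1)
    · apply he
      have h2 : (p : ℤ) ∣ ((p * m' : ℕ) : ℤ) * t := by
        push_cast
        exact ⟨m' * t, by ring⟩
      exact (Int.dvd_add_left h2).mp h1
  have hE' : F ^ μ * G = (p : ℤ) ^ i * ((m' : ℤ) ^ i * (e + ((p * m' : ℕ) : ℤ) * t)) := by
    rw [hE]
    push_cast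
    ring
  obtain ⟨v, y, hy, hy', hi, hyG⟩ := valuation_split hp hμ hG hw hE'
  exact ⟨m', hm', v, y, hy, hy', hi, hyG, by push_cast; ring⟩

/-- If two digit tuples differ, a value `f(n)^μ g(n)` equal to their difference has
`f(n)` divisible by `m ^ (V + 1)`. -/
theorem conflict_dvd {f g : ℤ[X]} {μ m V : ℕ} {R : Finset ℕ} (hS : Setting f g μ m R) {L x x' : ℕ}
    (hx : x ∈ digitSet m (allowed m μ V R) L) (hx' : x' ∈ digitSet m (allowed m μ V R) L)
    (hne : x ≠ x') {n : ℤ} (hE : (x : ℤ) - x' = (f.eval n) ^ μ * g.eval n) :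
    (m : ℤ) ^ (V + 1) ∣ f.eval n := by
  have hμ0 : 0 < μ := by have := hS.hμ; omega
  have hm0 : 0 < m := by have := hS.hm2; omega
  obtain ⟨i, hi, d, hd, d', hd', hdd, t, ht⟩ := digitSet_low L x hx x' hx' hne
  rw [hE] at ht
  have hi0 : i ≠ 0 := by
    rintro rfl
    simp only [allowed, if_true, mem_singleton] at hd hd'
    exact hdd (hd.trans hd'.symm)
  by_cases hres : μ ∣ i ∧ i / μ ≤ V
  · -- restricted position: contradiction with the condition on `R`
    exfalso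
    have hdR : d ∈ R := by simpa [allowed, hi0, hres] using hd
    have hdR' : d' ∈ R := by simpa [allowed, hi0, hres] using hd'
    obtain ⟨p, hp, hpm, he, hcond⟩ := hS.hR d hdR d' hdR' hdd
    obtain ⟨m', hm', v, y, hy, hy', hiv, hyG, hmm⟩ :=
      local_split hS.hm hμ0 hp hpm (hS.hg p hp hpm n) he ht
    have hpp : Prime (p : ℤ) := Nat.prime_iff_prime_int.mp hp
    have hv : v ≠ 0 := by
      rintro rfl
      simp at hiv
      exact hi0 hiv
    have hfn : (p : ℤ) ∣ f.eval n := by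
      rw [hy]
      exact Dvd.dvd.mul_right (dvd_pow_self _ hv) _
    -- the inverse of `m'` modulo `p`
    have hcop : IsCoprime (m' : ℤ) (p : ℤ) :=
      ((Prime.coprime_iff_not_dvd hpp).mpr hm').symm
    obtain ⟨z, b, hzb⟩ := hcop
    have hz : ¬ (p : ℤ) ∣ z := by
      intro hd2
      apply hpp.not_isUnit
      have : (p : ℤ) ∣ 1 := by
        rw [← hzb]
        exact dvd_add (Dvd.dvd.mul_right hd2 _) (Dvd.intro_left _ rfl)
      exact isUnit_of_dvd_one this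
    have : Fact p.Prime := ⟨hp⟩
    apply hcond n (y * z ^ v) hfn
    · intro hd2
      rcases hpp.dvd_or_dvd hd2 with h1 | h1
      · exact hy' h1
      · exact hz (hpp.dvd_of_dvd_pow h1)
    · rw [← ZMod.intCast_zmod_eq_zero_iff_dvd]
      have h1 : ((z : ℤ) : ZMod p) * (m' : ℤ) = 1 := by
        have := congrArg (fun q : ℤ => (q : ZMod p)) hzb
        simp only [Int.cast_add, Int.cast_mul, Int.cast_natCast, CharP.cast_eq_zero, mul_zero,
          add_zero, Int.cast_one] at this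
        simpa using this
      have h2 := congrArg (fun q : ℤ => (q : ZMod p)) hyG
      have hm0' : ((m : ℤ) : ZMod p) = 0 := by
        rw [hmm]
        simp
      simp only [Int.cast_mul, Int.cast_pow, Int.cast_add] at h2
      rw [hm0', zero_mul, add_zero] at h2
      rw [Int.cast_sub, Int.cast_mul, Int.cast_pow, Int.cast_mul, Int.cast_pow]
      have h3 : (((y : ℤ) : ZMod p) * ((z : ℤ) : ZMod p) ^ v) ^ μ * ((g.eval n : ℤ) : ZMod p)
          = ((z : ℤ) : ZMod p) ^ i * (((y : ℤ) : ZMod p) ^ μ * ((g.eval n : ℤ) : ZMod p)) := by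
        rw [hiv, mul_pow, ← pow_mul, mul_comm v μ]
        ring
      rw [h3, h2, ← mul_assoc, ← mul_pow, h1, one_pow, one_mul, sub_self]
  · -- free position: the valuation forces a high power of `m` in `f(n)`
    have hdm : d < m := by simpa [allowed, hi0, hres] using hd
    have hdm' : d' < m := by simpa [allowed, hi0, hres] using hd'
    have hnd : ¬ (m : ℤ) ∣ ((d : ℤ) - d') := by
      intro hdv
      have := Int.eq_zero_of_abs_lt_dvd hdv (by
        rw [abs_lt]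
        constructor <;> omega)
      omega
    obtain ⟨p, hp, hpm, he⟩ := exists_prime_not_dvd hS.hm hnd
    obtain ⟨m', hm', v, y, hy, hy', hiv, hyG, hmm⟩ :=
      local_split hS.hm hμ0 hp hpm (hS.hg p hp hpm n) he ht
    have hV : V + 1 ≤ v := by
      by_contra hlt
      apply hres
      refine ⟨⟨v, hiv⟩, ?_⟩
      rw [hiv, Nat.mul_div_cancel_left _ hμ0]
      omega
    apply pow_dvd_of_primes hS.hm
    intro q hq hqm
    have hqq : Prime (q : ℤ) := Nat.prime_iff_prime_int.mp hq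
    have hd1 : ((q : ℤ) ^ (V + 1)) ^ μ ∣ (f.eval n) ^ μ * g.eval n := by
      rw [ht, ← pow_mul]
      apply Dvd.dvd.mul_right
      have h1 : (q : ℤ) ∣ (m : ℤ) := by exact_mod_cast hqm
      calc (q : ℤ) ^ ((V + 1) * μ) ∣ (q : ℤ) ^ i :=
            pow_dvd_pow _ (by rw [hiv, mul_comm]; exact Nat.mul_le_mul_left _ hV)
        _ ∣ (m : ℤ) ^ i := pow_dvd_pow_of_dvd h1 i
    have hcop : IsCoprime (((q : ℤ) ^ (V + 1)) ^ μ) (g.eval n) := by
      apply IsCoprime.pow_left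
      apply IsCoprime.pow_left
      exact (Prime.coprime_iff_not_dvd hqq).mpr (hS.hg q hq hqm n)
    have hd2 := hcop.dvd_of_dvd_mul_right hd1
    exact (Int.pow_dvd_pow_iff (by omega)).mp hd2

end Vale.Agent.Lib.P042
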