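import Vale.Agent.Lib.P042.Core

/-!
Counting the possible conflicts, and a greedy independent subset.
-/

namespace Vale.Agent.Lib.P042

open Finset Polynomial

/-- Simple roots lift uniquely: solutions of `m ^ (V + 1) ∣ f n` are determined modulo `m`. -/
theorem lift_unique {f g : ℤ[X]} {μ m : ℕ} {R : Finset ℕ} (hS : Setting f g μ m R) (V : ℕ)
    {n n' : ℤ} (h1 : (m : ℤ) ^ (V + 1) ∣ f.eval n) (h2 : (m : ℤ) ^ (V + 1) ∣ f.eval n')
    (hmod : (m : ℤ) ∣ n - n') : (m : ℤ) ^ (V + 1) ∣ n - n' := by
  apply pow_dvd_of_primes hS.hm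
  intro p hp hpm
  have hpp : Prime (p : ℤ) := Nat.prime_iff_prime_int.mp hp
  have hpm' : (p : ℤ) ∣ (m : ℤ) := by exact_mod_cast hpm
  have hfn' : (p : ℤ) ∣ f.eval n' :=
    (hpm'.trans (dvd_pow_self _ (by omega))).trans h2
  have hder := hS.hf p hp hpm n' hfn'
  obtain ⟨k, hk⟩ := Polynomial.binomExpansion f n' (n - n')
  have hadd : n' + (n - n') = n := by ring
  rw [hadd] at hk
  have hd : (p : ℤ) ^ (V + 1) ∣ (n - n') * (f.derivative.eval n' + k * (n - n')) := by
    have e : (n - n') * (f.derivative.eval n' + k * (n - n')) = f.eval n - f.eval n' := by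
      rw [hk]
      ring
    rw [e]
    apply dvd_sub
    · exact (pow_dvd_pow_of_dvd hpm' _).trans h1
    · exact (pow_dvd_pow_of_dvd hpm' _).trans h2
  have hnd : ¬ (p : ℤ) ∣ (f.derivative.eval n' + k * (n - n')) := by
    intro hd2
    apply hder
    have : (p : ℤ) ∣ k * (n - n') := Dvd.dvd.mul_left (hpm'.trans hmod) _
    exact (Int.dvd_add_left this).mp hd2
  have hcop : IsCoprime ((p : ℤ) ^ (V + 1)) (f.derivative.eval n' + k * (n - n')) :=
    IsCoprime.pow_left ((Prime.coprime_iff_not_dvd hpp).mpr hnd)
  exact hcop.dvd_of_dvd_mul_right hd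

/-- The conflict values of `n`. -/
noncomputable def conflictSet (f : ℤ[X]) (m V X : ℕ) : Finset ℕ := by
  classical
  exact (Icc 1 X).filter (fun n : ℕ => (m : ℤ) ^ (V + 1) ∣ f.eval (n : ℤ))

theorem mem_conflictSet {f : ℤ[X]} {m V X n : ℕ} :
    n ∈ conflictSet f m V X ↔ (1 ≤ n ∧ n ≤ X) ∧ (m : ℤ) ^ (V + 1) ∣ f.eval (n : ℤ) := by
  classical
  unfold conflictSet
  simp [mem_filter]

theorem conflictSet_card {f g : ℤ[X]} {μ m : ℕ} {R : Finset ℕ} (hS : Setting f g μ m R)
    {V X : ℕ} (hX : X < m ^ (V + 1)) : (conflictSet f m V X).card ≤ m := by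
  have hm0 : 0 < m := by have := hS.hm2; omega
  have hcard : (conflictSet f m V X).card ≤ (range m).card := by
    apply Finset.card_le_card_of_injOn (fun n => n % m)
    · intro n _
      simpa using Nat.mod_lt n hm0
    · intro n hn n' hn' heq
      have hn1 := mem_conflictSet.mp hn
      have hn2 := mem_conflictSet.mp hn'
      simp only at heq
      have hmod : (m : ℤ) ∣ (n : ℤ) - n' := by
        have : (n : ℤ) % m = (n' : ℤ) % m := by exact_mod_cast heq
        exact Int.ModEq.dvd (Int.ModEq.symm this) |> fun h => by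
          have h' : (m : ℤ) ∣ (n : ℤ) - n' := h
          exact h'
      have hd := lift_unique hS V hn1.2 hn2.2 hmod
      have hlt : |(n : ℤ) - n'| < (m : ℤ) ^ (V + 1) := by
        have hX' : (X : ℤ) < (m : ℤ) ^ (V + 1) := by exact_mod_cast hX
        rw [abs_lt]
        constructor <;> omega
      have := Int.eq_zero_of_abs_lt_dvd hd hlt
      omega
  simpa using hcard

/-- Greedy choice: a symmetric relation of bounded degree has a large independent subset. -/
theorem exists_indep (r : ℕ → ℕ → Prop) (hsymm : ∀ a b, r a b → r b a) (D : ℕ) :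
    ∀ s : Finset ℕ, (∀ a ∈ s, ∃ T : Finset ℕ, T.card ≤ D ∧ ∀ b ∈ s, r a b → b ∈ T) →
      ∃ t ⊆ s, (∀ a ∈ t, ∀ b ∈ t, a ≠ b → ¬ r a b) ∧ s.card ≤ (D + 1) * t.card := by
  classical
  intro s
  induction s using Finset.strongInduction with
  | H s ih =>
    intro hdeg
    rcases s.eq_empty_or_nonempty with rfl | ⟨a, ha⟩
    · exact ⟨∅, Subset.refl _, by simp, by simp⟩
    · obtain ⟨T, hTc, hT⟩ := hdeg a ha
      set s' := (s.erase a).filter (fun b => ¬ r a b) with hs'
      have hsub : s' ⊂ s := by
        refine ⟨fun b hb => ?_, fun hcon => ?_⟩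
        · exact mem_of_mem_erase (mem_of_mem_filter _ hb)
        · have := hcon ha
          simp [hs'] at this
      obtain ⟨t, hts, hind, hcard⟩ := ih s' hsub (by
        intro b hb
        have hb' : b ∈ s := hsub.1 hb
        obtain ⟨T', hT'c, hT'⟩ := hdeg b hb'
        exact ⟨T', hT'c, fun c hc => hT' c (hsub.1 hc)⟩)
      have hat : a ∉ t := by
        intro hat
        have := hts hat
        simp [hs'] at this
      refine ⟨insert a t, ?_, ?_, ?_⟩
      · intro b hb
        rcases mem_insert.mp hb with rfl | hb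
        · exact ha
        · exact hsub.1 (hts hb)
      · intro b hb c hc hbc
        rcases mem_insert.mp hb with hb1 | hb1
        · rcases mem_insert.mp hc with hc1 | hc1
          · exact absurd (hb1.trans hc1.symm) hbc
          · have := hts hc1
            rw [hb1]
            exact (mem_filter.mp this).2
        · rcases mem_insert.mp hc with hc1 | hc1
          · have := hts hb1
            rw [hc1]
            exact fun hr => (mem_filter.mp this).2 (hsymm _ _ hr)
          · exact hind b hb1 c hc1 hbc
      · rw [card_insert_of_notMem hat]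
        have h1 : s ⊆ insert a (T ∪ s') := by
          intro b hb
          by_cases hba : b = a
          · simp [hba]
          · by_cases hr : r a b
            · simp [hT b hb hr]
            · have : b ∈ s' := mem_filter.mpr ⟨mem_erase.mpr ⟨hba, hb⟩, hr⟩
              simp [this]
        have h2 : s.card ≤ 1 + (T.card + s'.card) := by
          calc s.card ≤ (insert a (T ∪ s')).card := card_le_card h1
            _ ≤ (T ∪ s').card + 1 := card_insert_le _ _
            _ ≤ T.card + s'.card + 1 := by
                have := card_union_le T s'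
                omega
            _ = 1 + (T.card + s'.card) := by ring
        nlinarith

end Vale.Agent.Lib.P042
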