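import Mathlib

/-!
Definitions for sets avoiding polynomial differences.
-/

namespace Vale.Agent.Lib.P042

open Polynomial

/-- `A` has no nonzero difference of the form `h(n)` with `n ≥ 1`, that is
`(A - A) ∩ h(ℕ₊) ⊆ {0}`. -/
def DiffFree (h : ℤ[X]) (A : Finset ℕ) : Prop :=
  ∀ a ∈ A, ∀ b ∈ A, ∀ n : ℕ, 1 ≤ n → (a : ℤ) - b = h.eval (n : ℤ) → (a : ℤ) - b = 0

/-- `r_h(N)`: the largest size of a subset of `{1, ..., N}` with no nonzero difference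
of the form `h(n)`, `n ≥ 1`. -/
noncomputable def rh (h : ℤ[X]) (N : ℕ) : ℕ :=
  sSup {s : ℕ | ∃ A : Finset ℕ, A ⊆ Finset.Icc 1 N ∧ DiffFree h A ∧ A.card = s}

theorem card_le_rh {h : ℤ[X]} {N : ℕ} {A : Finset ℕ} (hA : A ⊆ Finset.Icc 1 N)
    (hd : DiffFree h A) : A.card ≤ rh h N := by
  unfold rh
  apply le_csSup
  · refine ⟨N, ?_⟩
    rintro s ⟨B, hB, -, rfl⟩
    simpa using Finset.card_le_card hB
  · exact ⟨A, hA, hd, rfl⟩

end Vale.Agent.Lib.P042
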