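import Vale.Agent.Lib.P042.Defs

/-!
Digit sets in base `m` and the lowest differing digit.
-/

namespace Vale.Agent.Lib.P042

open Finset

/-- Numbers below `m^L` whose base `m` digit at position `i` lies in `S i`. -/
def digitSet (m : ℕ) (S : ℕ → Finset ℕ) : ℕ → Finset ℕ
  | 0 => {0}
  | L + 1 => ((digitSet m S L) ×ˢ (S L)).image (fun q => q.1 + q.2 * m ^ L)

theorem digitSet_lt {m : ℕ} {S : ℕ → Finset ℕ} (hS : ∀ i, S i ⊆ range m) :
    ∀ L, ∀ x ∈ digitSet m S L, x < m ^ L := by
  intro L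
  induction L with
  | zero => simp [digitSet]
  | succ L ih =>
    intro x hx
    simp only [digitSet, mem_image, mem_product] at hx
    obtain ⟨⟨y, d⟩, ⟨hy, hd⟩, rfl⟩ := hx
    have hy' := ih y hy
    have hd' : d < m := by simpa using hS L hd
    calc y + d * m ^ L < m ^ L + d * m ^ L := by omega
      _ = (d + 1) * m ^ L := by ring
      _ ≤ m * m ^ L := Nat.mul_le_mul_right _ hd'
      _ = m ^ (L + 1) := by ring

theorem digitSet_card {m : ℕ} {S : ℕ → Finset ℕ} (hS : ∀ i, S i ⊆ range m) :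
    ∀ L, (digitSet m S L).card = ∏ i ∈ range L, (S i).card := by
  intro L
  induction L with
  | zero => simp [digitSet]
  | succ L ih =>
    rw [prod_range_succ, ← ih, digitSet, card_image_of_injOn, card_product]
    rintro ⟨y, d⟩ hq ⟨y', d'⟩ hq' heq
    simp only [coe_product, Set.mem_prod, mem_coe] at hq hq'
    obtain ⟨hy, hd⟩ := hq
    obtain ⟨hy', hd'⟩ := hq'
    have h1 := digitSet_lt hS L y hy
    have h2 := digitSet_lt hS L y' hy'
    simp only at heq
    have hpos : 0 < m ^ L := by omega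
    have e1 : (y + d * m ^ L) / m ^ L = d := by
      rw [Nat.add_mul_div_right _ _ hpos, Nat.div_eq_of_lt h1, zero_add]
    have e2 : (y' + d' * m ^ L) / m ^ L = d' := by
      rw [Nat.add_mul_div_right _ _ hpos, Nat.div_eq_of_lt h2, zero_add]
    have hdd : d = d' := by rw [← e1, ← e2, heq]
    subst hdd
    have hyy : y = y' := by omega
    subst hyy
    rfl

/-- Two different elements of a digit set have a lowest differing digit. -/
theorem digitSet_low {m : ℕ} {S : ℕ → Finset ℕ} :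
    ∀ L, ∀ x ∈ digitSet m S L, ∀ x' ∈ digitSet m S L, x ≠ x' →
      ∃ i < L, ∃ d ∈ S i, ∃ d' ∈ S i, d ≠ d' ∧ ∃ t : ℤ,
        (x : ℤ) - x' = (m : ℤ) ^ i * ((d : ℤ) - d' + m * t) := by
  intro L
  induction L with
  | zero => simp [digitSet]
  | succ L ih =>
    intro x hx x' hx' hne
    simp only [digitSet, mem_image, mem_product] at hx hx'
    obtain ⟨⟨y, d⟩, ⟨hy, hd⟩, rfl⟩ := hx
    obtain ⟨⟨y', d'⟩, ⟨hy', hd'⟩, rfl⟩ := hx'
    simp only at hne ⊢
    by_cases hyy : y = y'
    · subst hyy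
      have hdd : d ≠ d' := by
        rintro rfl
        exact hne rfl
      refine ⟨L, Nat.lt_succ_self _, d, hd, d', hd', hdd, 0, ?_⟩
      push_cast
      ring
    · obtain ⟨i, hi, e, he, e', he', hee, t, ht⟩ := ih y hy y' hy' hyy
      refine ⟨i, by omega, e, he, e', he', hee,
        t + ((d : ℤ) - d') * (m : ℤ) ^ (L - i - 1), ?_⟩
      have hL : (m : ℤ) ^ L = (m : ℤ) ^ i * (m * (m : ℤ) ^ (L - i - 1)) := by
        rw [← pow_succ', ← pow_add]
        congr 1
        omega
      push_cast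
      have : (y : ℤ) + d * (m : ℤ) ^ L - (y' + d' * (m : ℤ) ^ L)
          = ((y : ℤ) - y') + ((d : ℤ) - d') * (m : ℤ) ^ L := by ring
      rw [this, ht, hL]
      ring

end Vale.Agent.Lib.P042
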