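import Vale.Agent.Lib.P042.Count

/-!
Growth of the polynomial, density of the digit set, and the lower bound for `r_h`.
-/

namespace Vale.Agent.Lib.P042

open Finset Polynomial Filter

/-- A value of `h` below `N` in absolute value has argument `O(N ^ (1 / k))`. -/
theorem growth (h : ℤ[X]) (hk : 1 ≤ h.natDegree) (hl : 0 < h.leadingCoeff) :
    ∃ C : ℝ, 1 ≤ C ∧ ∀ n N : ℕ, 1 ≤ n → 1 ≤ N → |h.eval (n : ℤ)| < N →
      (n : ℝ) ≤ C * (N : ℝ) ^ (1 / (h.natDegree : ℝ)) := by
  set H : ℝ[X] := h.map (Int.castRingHom ℝ) with hH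
  have hinj : Function.Injective (Int.castRingHom ℝ) := Int.cast_injective
  have hdeg : H.natDegree = h.natDegree := natDegree_map_eq_of_injective hinj h
  have hlead : H.leadingCoeff = (h.leadingCoeff : ℝ) := by
    rw [hH, leadingCoeff_map_of_injective hinj]
    rfl
  have hlead1 : (1 : ℝ) ≤ H.leadingCoeff := by
    rw [hlead]
    exact_mod_cast hl
  have hev : ∀ x : ℤ, H.eval (x : ℝ) = ((h.eval x : ℤ) : ℝ) := by
    intro x
    rw [hH, eval_map, eval₂_at_intCast]
    rfl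
  have hequiv := Polynomial.isEquivalent_atTop_lead H
  have hsmall := hequiv.isLittleO.def (c := 1 / 2) (by norm_num)
  obtain ⟨x0, hx0⟩ := eventually_atTop.mp hsmall
  set n0 := ⌈x0⌉₊ with hn0
  refine ⟨max 2 (n0 : ℝ), le_trans (by norm_num) (le_max_left _ _), ?_⟩
  intro n N hn hN hlt
  have hNr : (1 : ℝ) ≤ (N : ℝ) := by exact_mod_cast hN
  have hk0 : (0 : ℝ) < (h.natDegree : ℝ) := by
    have : 0 < h.natDegree := by omega
    exact_mod_cast this
  have hroot1 : (1 : ℝ) ≤ (N : ℝ) ^ (1 / (h.natDegree : ℝ)) :=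
    Real.one_le_rpow hNr (by positivity)
  by_cases hnn : n0 ≤ n
  · have hxn : x0 ≤ (n : ℝ) := (Nat.le_ceil x0).trans (by exact_mod_cast hnn)
    have h1 := hx0 n hxn
    simp only [Pi.sub_apply, Real.norm_eq_abs] at h1
    have hnr : (0 : ℝ) ≤ (n : ℝ) := by positivity
    rw [hdeg] at h1
    have hv : |H.leadingCoeff * (n : ℝ) ^ h.natDegree|
        = H.leadingCoeff * (n : ℝ) ^ h.natDegree := by
      apply abs_of_nonneg
      have : (0 : ℝ) ≤ H.leadingCoeff := by linarith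
      positivity
    rw [hv] at h1
    have he : H.eval (n : ℝ) = ((h.eval (n : ℤ) : ℤ) : ℝ) := by
      have := hev (n : ℤ)
      simpa using this
    rw [he] at h1
    have habs : |((h.eval (n : ℤ) : ℤ) : ℝ)| < N := by
      have : ((|h.eval (n : ℤ)| : ℤ) : ℝ) < ((N : ℤ) : ℝ) := by exact_mod_cast hlt
      simpa using this
    have hpow : (n : ℝ) ^ h.natDegree ≤ H.leadingCoeff * (n : ℝ) ^ h.natDegree := by
      have : (0 : ℝ) ≤ (n : ℝ) ^ h.natDegree := by positivity
      nlinarith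
    have hb : H.leadingCoeff * (n : ℝ) ^ h.natDegree / 2 ≤ |((h.eval (n : ℤ) : ℤ) : ℝ)| := by
      have h3 := abs_sub_abs_le_abs_sub (H.leadingCoeff * (n : ℝ) ^ h.natDegree)
        ((h.eval (n : ℤ) : ℤ) : ℝ)
      rw [hv, abs_sub_comm] at h3
      linarith
    have hsq : (n : ℝ) ^ h.natDegree ≤ 2 * (N : ℝ) := by linarith
    have hstep : (n : ℝ) ≤ (2 * (N : ℝ)) ^ (1 / (h.natDegree : ℝ)) := by
      have h4 : ((n : ℝ) ^ h.natDegree) ^ (1 / (h.natDegree : ℝ)) = (n : ℝ) := by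
        rw [one_div]
        exact Real.pow_rpow_inv_natCast hnr (by omega)
      rw [← h4]
      exact Real.rpow_le_rpow (by positivity) hsq (by positivity)
    have h2le : (2 : ℝ) ^ (1 / (h.natDegree : ℝ)) ≤ 2 := by
      calc (2 : ℝ) ^ (1 / (h.natDegree : ℝ)) ≤ (2 : ℝ) ^ (1 : ℝ) := by
            apply Real.rpow_le_rpow_of_exponent_le (by norm_num)
            rw [div_le_one hk0]
            exact_mod_cast hk
        _ = 2 := Real.rpow_one 2
    rw [Real.mul_rpow (by norm_num) (by positivity)] at hstep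
    have hNpos : (0 : ℝ) ≤ (N : ℝ) ^ (1 / (h.natDegree : ℝ)) := by positivity
    calc (n : ℝ) ≤ 2 ^ (1 / (h.natDegree : ℝ)) * (N : ℝ) ^ (1 / (h.natDegree : ℝ)) := hstep
      _ ≤ max 2 (n0 : ℝ) * (N : ℝ) ^ (1 / (h.natDegree : ℝ)) :=
          mul_le_mul_of_nonneg_right (h2le.trans (le_max_left _ _)) hNpos
  · have hle : (n : ℝ) ≤ (n0 : ℝ) := by
      have : n ≤ n0 := by omega
      exact_mod_cast this
    have hC : (n0 : ℝ) ≤ max 2 (n0 : ℝ) := le_max_right _ _
    have hCpos : (0 : ℝ) ≤ max 2 (n0 : ℝ) := le_trans (by norm_num) (le_max_left _ _)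
    calc (n : ℝ) ≤ max 2 (n0 : ℝ) := hle.trans hC
      _ = max 2 (n0 : ℝ) * 1 := by ring
      _ ≤ max 2 (n0 : ℝ) * (N : ℝ) ^ (1 / (h.natDegree : ℝ)) :=
          mul_le_mul_of_nonneg_left hroot1 hCpos

/-- Size of the digit set. -/
theorem digitSet_density {m μ V : ℕ} {R : Finset ℕ} (hμ : 0 < μ) (hm : 2 ≤ m) (hR0 : R ⊆ range m)
    (L : ℕ) :
    (m : ℝ) ^ L * (1 / m) * ((R.card : ℝ) / m) ^ V
      ≤ ((digitSet m (allowed m μ V R) L).card : ℝ) := by
  have hm0 : (0 : ℝ) < m := by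
    have : 0 < m := by omega
    exact_mod_cast this
  have hmpos : 0 < m := by omega
  rw [digitSet_card (fun i => allowed_subset hmpos hR0 i) L]
  set ρ : ℝ := (R.card : ℝ) / m with hρ
  have hρ0 : 0 ≤ ρ := by positivity
  have hRle : (R.card : ℝ) ≤ m := by
    have := card_le_card hR0
    rw [card_range] at this
    exact_mod_cast this
  have hρ1 : ρ ≤ 1 := by
    rw [hρ, div_le_one hm0]
    exact hRle
  classical
  set P : ℕ → Prop := fun i => i ≠ 0 ∧ μ ∣ i ∧ i / μ ≤ V with hP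
  have hcardeq : ∀ i, ((allowed m μ V R i).card : ℝ)
      = (m : ℝ) * ((if i = 0 then 1 / (m : ℝ) else 1) * (if P i then ρ else 1)) := by
    intro i
    unfold allowed
    by_cases h0 : i = 0
    · have hnP : ¬ P i := fun h => h.1 h0
      simp only [h0, if_true, card_singleton, Nat.cast_one]
      have hnP0 : ¬ P 0 := fun h => h.1 rfl
      rw [if_neg hnP0]
      field_simp
    · by_cases hr : μ ∣ i ∧ i / μ ≤ V
      · have hp : P i := ⟨h0, hr⟩
        rw [if_neg h0, if_pos hr, if_neg h0, if_pos hp, hρ]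
        field_simp
      · have hp : ¬ P i := fun h => hr h.2
        rw [if_neg h0, if_neg hr, if_neg h0, if_neg hp, card_range]
        ring
  push_cast
  rw [Finset.prod_congr rfl (fun i _ => hcardeq i), Finset.prod_mul_distrib, prod_const, card_range,
    Finset.prod_mul_distrib, Finset.prod_ite_eq' (range L) 0 (fun _ => 1 / (m : ℝ))]
  have ha : 1 / (m : ℝ) ≤ (if 0 ∈ range L then 1 / (m : ℝ) else 1) := by
    split_ifs
    · exact le_refl _
    · rw [div_le_one hm0]
      exact_mod_cast (by omega : 1 ≤ m)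
  have hb : ρ ^ V ≤ ∏ i ∈ range L, (if P i then ρ else 1) := by
    rw [Finset.prod_ite, prod_const, prod_const_one, mul_one]
    apply pow_le_pow_of_le_one hρ0 hρ1
    have hsub : (range L).filter P ⊆ (Icc 1 V).image (fun v => μ * v) := by
      intro i hi
      obtain ⟨-, h0, hd, hle⟩ := mem_filter.mp hi
      obtain ⟨v, rfl⟩ := hd
      rw [Nat.mul_div_cancel_left _ hμ] at hle
      refine mem_image.mpr ⟨v, mem_Icc.mpr ⟨?_, hle⟩, rfl⟩
      rcases Nat.eq_zero_or_pos v with rfl | hv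
      · simp at h0
      · exact hv
    calc ((range L).filter P).card ≤ ((Icc 1 V).image (fun v => μ * v)).card := card_le_card hsub
      _ ≤ (Icc 1 V).card := card_image_le
      _ = V := by simp
  have hmL : (0 : ℝ) ≤ (m : ℝ) ^ L := by positivity
  have h1m : (0 : ℝ) ≤ 1 / (m : ℝ) := by positivity
  calc (m : ℝ) ^ L * (1 / m) * ρ ^ V ≤ (m : ℝ) ^ L * (1 / m)
        * ∏ i ∈ range L, (if P i then ρ else 1) :=
        mul_le_mul_of_nonneg_left hb (by positivity)
    _ ≤ (m : ℝ) ^ L * (if 0 ∈ range L then 1 / (m : ℝ) else 1)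
        * ∏ i ∈ range L, (if P i then ρ else 1) := by
        apply mul_le_mul_of_nonneg_right
        · exact mul_le_mul_of_nonneg_left ha hmL
        · exact Finset.prod_nonneg (fun i _ => by split_ifs <;> positivity)
    _ = _ := by ring

/-- The combinatorial core: for every `N` and `V` with `X < m ^ (V + 1)`, a `DiffFree` subset
of `[1, N]` of size at least a fraction of the digit set. -/
theorem exists_large {f g : ℤ[X]} {μ m : ℕ} {R : Finset ℕ} (hS : Setting f g μ m R)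
    {N X V L : ℕ} (hL : m ^ L ≤ N) (hX : X < m ^ (V + 1))
    (hbound : ∀ n : ℕ, 1 ≤ n → |(f ^ μ * g).eval (n : ℤ)| < N → n ≤ X) :
    ∃ A : Finset ℕ, A ⊆ Icc 1 N ∧ DiffFree (f ^ μ * g) A ∧
      (digitSet m (allowed m μ V R) L).card ≤ (2 * m + 1) * A.card := by
  classical
  have hm0 : 0 < m := by have := hS.hm2; omega
  have hlt : ∀ x ∈ digitSet m (allowed m μ V R) L, x < m ^ L :=
    digitSet_lt (fun i => allowed_subset hm0 hS.hR0 i) L
  set h := f ^ μ * g with hh
  set S := conflictSet f m V X with hSdef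
  have hScard : S.card ≤ m := conflictSet_card hS hX
  set r : ℕ → ℕ → Prop := fun x x' => ∃ n ∈ S,
    ((x : ℤ) - x' = h.eval (n : ℤ) ∨ (x' : ℤ) - x = h.eval (n : ℤ)) with hr
  have hsymm : ∀ a b, r a b → r b a := by
    rintro a b ⟨n, hn, h1 | h1⟩
    · exact ⟨n, hn, Or.inr h1⟩
    · exact ⟨n, hn, Or.inl h1⟩
  obtain ⟨t, hts, hind, hcard⟩ := exists_indep r hsymm (2 * m)
    (digitSet m (allowed m μ V R) L) (by
      intro a _
      refine ⟨S.image (fun n : ℕ => ((a : ℤ) - h.eval (n : ℤ)).toNat)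
        ∪ S.image (fun n : ℕ => ((a : ℤ) + h.eval (n : ℤ)).toNat), ?_, ?_⟩
      · calc _ ≤ (S.image (fun n : ℕ => ((a : ℤ) - h.eval (n : ℤ)).toNat)).card
              + (S.image (fun n : ℕ => ((a : ℤ) + h.eval (n : ℤ)).toNat)).card := card_union_le _ _
          _ ≤ S.card + S.card := add_le_add card_image_le card_image_le
          _ ≤ 2 * m := by omega
      · rintro b - ⟨n, hn, h1 | h1⟩
        · apply mem_union_left
          refine mem_image.mpr ⟨n, hn, ?_⟩
          have : (a : ℤ) - h.eval (n : ℤ) = (b : ℤ) := by rw [← h1]; ring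
          rw [this]
          simp
        · apply mem_union_right
          refine mem_image.mpr ⟨n, hn, ?_⟩
          have : (a : ℤ) + h.eval (n : ℤ) = (b : ℤ) := by rw [← h1]; ring
          rw [this]
          simp)
  refine ⟨t.image (· + 1), ?_, ?_, ?_⟩
  · intro a ha
    obtain ⟨x, hx, rfl⟩ := mem_image.mp ha
    have := hlt x (hts hx)
    simp only [mem_Icc]
    omega
  · intro a ha b hb n hn hE
    obtain ⟨x, hx, rfl⟩ := mem_image.mp ha
    obtain ⟨x', hx', rfl⟩ := mem_image.mp hb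
    by_cases hxx : x = x'
    · subst hxx
      ring
    · exfalso
      have hE' : (x : ℤ) - x' = h.eval (n : ℤ) := by
        rw [← hE]
        push_cast
        ring
      have hev : h.eval (n : ℤ) = (f.eval (n : ℤ)) ^ μ * g.eval (n : ℤ) := by
        rw [hh, eval_mul, eval_pow]
      have hdvd := conflict_dvd hS (hts hx) (hts hx') hxx (by rw [hE', hev])
      have hxlt := hlt x (hts hx)
      have hxlt' := hlt x' (hts hx')
      have habs : |h.eval (n : ℤ)| < N := by
        rw [← hE', abs_lt]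
        have h1 : (x : ℤ) < N := by exact_mod_cast lt_of_lt_of_le hxlt hL
        have h2 : (x' : ℤ) < N := by exact_mod_cast lt_of_lt_of_le hxlt' hL
        constructor <;> omega
      have hnX := hbound n hn habs
      exact hind x hx x' hx' hxx ⟨n, mem_conflictSet.mpr ⟨⟨hn, hnX⟩, hdvd⟩, Or.inl hE'⟩
  · rw [card_image_of_injective _ (add_left_injective 1)]
    exact hcard


/-- The lower bound for `r_h`, for `h = f ^ μ * g`. -/
theorem main_bound {f g : ℤ[X]} {μ m : ℕ} {R : Finset ℕ} (hS : Setting f g μ m R)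
    (hne : R.Nonempty) (hk : 1 ≤ (f ^ μ * g).natDegree) (hl : 0 < (f ^ μ * g).leadingCoeff) :
    ∃ c : ℝ, 0 < c ∧ ∀ N : ℕ, 1 ≤ N →
      c * (N : ℝ) ^ (1 - 1 / (((f ^ μ * g).natDegree : ℕ) : ℝ)
        + Real.logb m R.card / ((f ^ μ * g).natDegree : ℕ)) ≤ (rh (f ^ μ * g) N : ℝ) := by
  set h := f ^ μ * g with hh
  set k := h.natDegree with hkdef
  have hk0 : (0 : ℝ) < (k : ℝ) := by
    have : 0 < k := by omega
    exact_mod_cast this
  have hμ0 : 0 < μ := by have := hS.hμ; omega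
  have hm2 := hS.hm2
  have hmr : (1 : ℝ) < m := by exact_mod_cast (by omega : 1 < m)
  have hm0r : (0 : ℝ) < m := by linarith
  have hRpos : 0 < R.card := card_pos.mpr hne
  have hRr : (0 : ℝ) < (R.card : ℝ) := by exact_mod_cast hRpos
  set β := Real.logb m R.card with hβ
  have hβ0 : 0 ≤ β := by
    apply Real.logb_nonneg hmr
    exact_mod_cast hRpos
  have hRβ : (m : ℝ) ^ β = (R.card : ℝ) := Real.rpow_logb hm0r (ne_of_gt hmr) hRr
  obtain ⟨C, hC1, hC⟩ := growth h hk hl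
  have hC0 : 0 < C := by linarith
  refine ⟨C ^ (β - 1) / (2 * (m : ℝ) ^ 2 * (m : ℝ) ^ β * (2 * m + 1)), by positivity, ?_⟩
  intro N hN
  have hNr : (1 : ℝ) ≤ (N : ℝ) := by exact_mod_cast hN
  have hN0 : (0 : ℝ) < (N : ℝ) := by linarith
  set X : ℝ := C * (N : ℝ) ^ (1 / (k : ℝ)) with hX
  have hroot1 : (1 : ℝ) ≤ (N : ℝ) ^ (1 / (k : ℝ)) := Real.one_le_rpow hNr (by positivity)
  have hX1 : 1 ≤ X := by nlinarith
  have hX0 : 0 < X := by linarith
  set Xn := ⌈X⌉₊ with hXn
  have hXnpos : Xn ≠ 0 := by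
    have : 0 < Xn := Nat.ceil_pos.mpr hX0
    omega
  have hXle : X ≤ (Xn : ℝ) := Nat.le_ceil X
  have hXnle : (Xn : ℝ) ≤ 2 * X := by
    have := Nat.ceil_lt_add_one hX0.le
    linarith
  set V := Nat.log m Xn with hV
  set L := Nat.log m N with hL
  have hV1 : m ^ V ≤ Xn := Nat.pow_log_le_self m hXnpos
  have hV2 : Xn < m ^ (V + 1) := Nat.lt_pow_succ_log_self (by omega) Xn
  have hL1 : m ^ L ≤ N := Nat.pow_log_le_self m (by omega)
  have hL2 : N < m ^ (L + 1) := Nat.lt_pow_succ_log_self (by omega) N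
  have hbound : ∀ n : ℕ, 1 ≤ n → |h.eval (n : ℤ)| < N → n ≤ Xn := by
    intro n hn habs
    have h1 := hC n N hn hN habs
    have h2 : (n : ℝ) ≤ (Xn : ℝ) := h1.trans hXle
    exact_mod_cast h2
  obtain ⟨A, hAsub, hAfree, hAcard⟩ := exists_large hS hL1 hV2 hbound
  have hrh : (A.card : ℝ) ≤ (rh h N : ℝ) := by
    exact_mod_cast card_le_rh hAsub hAfree
  refine le_trans ?_ hrh
  have hdens := digitSet_density (μ := μ) (V := V) hμ0 hm2 hS.hR0 L
  have hAc : ((digitSet m (allowed m μ V R) L).card : ℝ) ≤ (2 * m + 1) * (A.card : ℝ) := by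
    exact_mod_cast hAcard
  -- lower bounds for the three factors
  have hmL : (N : ℝ) / m ≤ (m : ℝ) ^ L := by
    rw [div_le_iff₀ hm0r]
    have : (N : ℝ) ≤ (m : ℝ) ^ (L + 1) := by exact_mod_cast hL2.le
    rw [pow_succ] at this
    linarith
  have hmVup : (m : ℝ) ^ V ≤ 2 * X := by
    have : ((m ^ V : ℕ) : ℝ) ≤ (Xn : ℝ) := by exact_mod_cast hV1
    push_cast at this
    linarith
  have hmVlow : X / m ≤ (m : ℝ) ^ V := by
    rw [div_le_iff₀ hm0r]
    have : (Xn : ℝ) ≤ (m : ℝ) ^ (V + 1) := by exact_mod_cast hV2.le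
    rw [pow_succ] at this
    linarith
  have hmVpos : (0 : ℝ) < (m : ℝ) ^ V := by positivity
  have hRV : (X / m) ^ β ≤ (R.card : ℝ) ^ V := by
    rw [← hRβ, ← Real.rpow_natCast ((m : ℝ) ^ β) V, ← Real.rpow_mul hm0r.le, mul_comm β,
      Real.rpow_mul hm0r.le, Real.rpow_natCast]
    exact Real.rpow_le_rpow (by positivity) hmVlow hβ0
  have hρ : X ^ (β - 1) / (2 * (m : ℝ) ^ β) ≤ ((R.card : ℝ) / m) ^ V := by
    rw [div_pow]
    have e : X ^ (β - 1) / (2 * (m : ℝ) ^ β) = (X / m) ^ β / (2 * X) := by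
      rw [Real.div_rpow hX0.le hm0r.le, Real.rpow_sub_one hX0.ne']
      field_simp
    rw [e]
    exact div_le_div₀ (by positivity) hRV hmVpos hmVup
  have hXpow : X ^ (β - 1) = C ^ (β - 1) * (N : ℝ) ^ ((β - 1) / (k : ℝ)) := by
    rw [hX, Real.mul_rpow hC0.le (by positivity), ← Real.rpow_mul hN0.le]
    congr 2
    ring
  have hNexp : (N : ℝ) ^ (1 - 1 / (k : ℝ) + β / (k : ℝ))
      = (N : ℝ) * (N : ℝ) ^ ((β - 1) / (k : ℝ)) := by
    have e : 1 - 1 / (k : ℝ) + β / (k : ℝ) = 1 + (β - 1) / (k : ℝ) := by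
      field_simp
      ring
    rw [e, Real.rpow_add hN0, Real.rpow_one]
  have hkey : (N : ℝ) / m * (1 / m) * (X ^ (β - 1) / (2 * (m : ℝ) ^ β))
      ≤ ((digitSet m (allowed m μ V R) L).card : ℝ) := by
    refine le_trans ?_ hdens
    apply mul_le_mul _ hρ (by positivity) (by positivity)
    exact mul_le_mul_of_nonneg_right hmL (by positivity)
  have hfin := hkey.trans hAc
  have h2m : (0 : ℝ) < 2 * m + 1 := by positivity
  have : C ^ (β - 1) / (2 * (m : ℝ) ^ 2 * (m : ℝ) ^ β * (2 * m + 1))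
      * (N : ℝ) ^ (1 - 1 / (k : ℝ) + β / (k : ℝ))
      = ((N : ℝ) / m * (1 / m) * (X ^ (β - 1) / (2 * (m : ℝ) ^ β))) / (2 * m + 1) := by
    rw [hNexp, hXpow]
    field_simp
  rw [this, div_le_iff₀ h2m]
  linarith

end Vale.Agent.Lib.P042
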