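import Vale.Agent.Lib.P042.Main

/-!
Perfect powers: a power gain over the greedy bound for every `h = f ^ μ`, `μ ≥ 2`,
`f` separable over the rationals.
-/

namespace Vale.Agent.Lib.P042

open Finset Polynomial

/-- Clearing denominators in a Bezout identity for `f` and its derivative. -/
theorem exists_bezout (f : ℤ[X]) (hsep : (f.map (Int.castRingHom ℚ)).Separable) :
    ∃ (U V : ℤ[X]) (D : ℤ), D ≠ 0 ∧ U * f + V * f.derivative = C D := by
  obtain ⟨u, v, huv⟩ := hsep
  rw [derivative_map] at huv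
  obtain ⟨b1, hb1m, hb1⟩ := IsLocalization.integerNormalization_spec (nonZeroDivisors ℤ) u
  obtain ⟨b2, hb2m, hb2⟩ := IsLocalization.integerNormalization_spec (nonZeroDivisors ℤ) v
  set U1 := IsLocalization.integerNormalization (nonZeroDivisors ℤ) u
  set V1 := IsLocalization.integerNormalization (nonZeroDivisors ℤ) v
  have hb10 : (b1 : ℤ) ≠ 0 := nonZeroDivisors.ne_zero hb1m
  have hb20 : (b2 : ℤ) ≠ 0 := nonZeroDivisors.ne_zero hb2m
  refine ⟨C (b2 : ℤ) * U1, C (b1 : ℤ) * V1, (b1 : ℤ) * b2, mul_ne_zero hb10 hb20, ?_⟩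
  have hinj : Function.Injective (Polynomial.map (Int.castRingHom ℚ)) :=
    Polynomial.map_injective _ Int.cast_injective
  apply hinj
  have hb1' : U1.map (Int.castRingHom ℚ) = C ((b1 : ℤ) : ℚ) * u := by
    have : U1.map (algebraMap ℤ ℚ) = (b1 : ℤ) • u := hb1
    rw [show algebraMap ℤ ℚ = Int.castRingHom ℚ from rfl] at this
    rw [this, zsmul_eq_mul]
    simp
  have hb2' : V1.map (Int.castRingHom ℚ) = C ((b2 : ℤ) : ℚ) * v := by
    have : V1.map (algebraMap ℤ ℚ) = (b2 : ℤ) • v := hb2
    rw [show algebraMap ℤ ℚ = Int.castRingHom ℚ from rfl] at this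
    rw [this, zsmul_eq_mul]
    simp
  simp only [Polynomial.map_add, Polynomial.map_mul, Polynomial.map_C, hb1', hb2']
  simp only [eq_intCast]
  calc _ = C (((b1 : ℤ) : ℚ) * ((b2 : ℤ) : ℚ))
        * (u * f.map (Int.castRingHom ℚ) + v * (f.derivative).map (Int.castRingHom ℚ)) := by
        rw [C_mul]
        ring
    _ = _ := by
        rw [huv, mul_one]
        push_cast
        rfl

/-- A primitive root modulo `p ≡ 1 (mod 2 μ)`: neither it nor its negative is a `μ`-th power. -/
theorem exists_non_power {p μ : ℕ} [hp : Fact p.Prime] (hμ : 2 ≤ μ) (hmod : p ≡ 1 [MOD 2 * μ]) :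
    ∃ r : ZMod p, r ≠ 0 ∧ ∀ y : ZMod p, y ≠ 0 → r ≠ y ^ μ ∧ -r ≠ y ^ μ := by
  obtain ⟨g, hg⟩ := IsCyclic.exists_generator (α := (ZMod p)ˣ)
  have hord : orderOf g = p - 1 := by
    rw [orderOf_eq_card_of_forall_mem_zpowers hg, Nat.card_eq_fintype_card, ZMod.card_units]
  have hp1 : 1 ≤ p := hp.out.one_lt.le
  have hdvd : 2 * μ ∣ p - 1 := (Nat.modEq_iff_dvd' hp1).mp hmod.symm
  obtain ⟨s, hs⟩ := hdvd
  have hp2 : 0 < p - 1 := by
    have := hp.out.one_lt
    omega
  have hs0 : 0 < s := by
    rcases Nat.eq_zero_or_pos s with rfl | h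
    · simp at hs
      omega
    · exact h
  -- `g ^ (μ * s)` is `-1`
  have hmone : ((g ^ (μ * s) : (ZMod p)ˣ) : ZMod p) = -1 := by
    have h1 : (g ^ (μ * s)) * (g ^ (μ * s)) = 1 := by
      rw [← pow_add, show μ * s + μ * s = p - 1 by rw [hs]; ring, ← hord, pow_orderOf_eq_one]
    have h2 : ((g ^ (μ * s) : (ZMod p)ˣ) : ZMod p) * ((g ^ (μ * s) : (ZMod p)ˣ) : ZMod p) = 1 := by
      rw [← Units.val_mul, h1, Units.val_one]
    rcases mul_self_eq_one_iff.mp h2 with h3 | h3
    · exfalso
      have h4 : g ^ (μ * s) = 1 := Units.ext (by simpa using h3)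
      have h5 := orderOf_dvd_of_pow_eq_one h4
      rw [hord] at h5
      have h6 := Nat.le_of_dvd (by positivity) h5
      have h7 : p - 1 = 2 * (μ * s) := by rw [hs]; ring
      have : 0 < μ * s := by positivity
      omega
    · exact h3
  have hnotpow : ∀ y : ZMod p, y ≠ 0 → (g : ZMod p) ≠ y ^ μ := by
    intro y hy heq
    set Y := Units.mk0 y hy with hY
    have h1 : g = Y ^ μ := by
      apply Units.ext
      rw [Units.val_pow_eq_pow_val, hY, Units.val_mk0]
      exact heq
    have h2 : g ^ (2 * s) = 1 := by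
      rw [h1, ← pow_mul, show μ * (2 * s) = p - 1 by rw [hs]; ring]
      have h3 : Y ^ (p - 1) = 1 := by
        have := pow_card_eq_one (x := Y)
        rwa [Fintype.card_units, ZMod.card] at this
      exact h3
    have h5 := orderOf_dvd_of_pow_eq_one h2
    rw [hord] at h5
    have h6 := Nat.le_of_dvd (by positivity) h5
    have h7 : p - 1 = (2 * s) * μ := by rw [hs]; ring
    have : 2 * (2 * s) ≤ (2 * s) * μ := by
      rw [mul_comm 2 (2 * s)]
      exact Nat.mul_le_mul_left _ hμ
    have : 0 < 2 * s := by positivity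
    omega
  refine ⟨(g : ZMod p), g.ne_zero, fun y hy => ⟨hnotpow y hy, ?_⟩⟩
  intro heq
  have hζ : ((g : ZMod p) ^ s) ^ μ = -1 := by
    rw [← pow_mul, mul_comm, ← Units.val_pow_eq_pow_val]
    exact hmone
  apply hnotpow (((g : ZMod p) ^ s)⁻¹ * y) (by
    apply mul_ne_zero _ hy
    exact inv_ne_zero (pow_ne_zero _ g.ne_zero))
  rw [mul_pow, inv_pow, ← heq, hζ]
  simp


/-- Perfect powers gain a power over the greedy bound. -/
theorem perfect_power_gain (f : ℤ[X]) (μ : ℕ) (hμ : 2 ≤ μ) (hf : 0 < f.natDegree)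
    (hsep : (f.map (Int.castRingHom ℚ)).Separable) (hl : 0 < (f ^ μ).leadingCoeff) :
    ∃ c C : ℝ, 0 < c ∧ 0 < C ∧ ∀ N : ℕ, 1 ≤ N →
      C * (N : ℝ) ^ (1 - 1 / (((f ^ μ).natDegree : ℕ) : ℝ) + c) ≤ (rh (f ^ μ) N : ℝ) := by
  obtain ⟨U, V, D, hD, hbez⟩ := exists_bezout f hsep
  obtain ⟨p, hp, hpD, hpmod⟩ := Nat.exists_prime_gt_modEq_one (k := 2 * μ) D.natAbs (by omega)
  have : Fact p.Prime := ⟨hp⟩
  have hpp : Prime (p : ℤ) := Nat.prime_iff_prime_int.mp hp
  obtain ⟨w, hw0, hw⟩ := exists_non_power hμ hpmod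
  set r : ℕ := w.val with hr
  have hrcast : ((r : ℕ) : ZMod p) = w := ZMod.natCast_zmod_val w
  have hrcasti : (((r : ℕ) : ℤ) : ZMod p) = w := by
    rw [Int.cast_natCast, hrcast]
  have hr0 : r ≠ 0 := by
    intro h0
    rw [h0] at hrcast
    apply hw0
    rw [← hrcast]
    simp
  have hrp : r < p := ZMod.val_lt w
  set R : Finset ℕ := {0, r} with hRdef
  have hRcard : R.card = 2 := by
    rw [hRdef, card_pair (Ne.symm hr0)]
  have hnd : ¬ (p : ℤ) ∣ (r : ℤ) := by
    rw [← ZMod.intCast_zmod_eq_zero_iff_dvd, hrcasti]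
    exact hw0
  have hS : Setting f 1 μ p R := by
    refine ⟨hμ, hp.prime.squarefree, hp.two_le, ?_, ?_, ?_, ?_⟩
    · intro q hq hqp t
      have hqe : q = p := (Nat.prime_dvd_prime_iff_eq hq hp).mp hqp
      subst hqe
      simp only [eval_one]
      intro hd
      exact hpp.not_isUnit (isUnit_of_dvd_one hd)
    · intro q hq hqp t hft hft'
      have hqe : q = p := (Nat.prime_dvd_prime_iff_eq hq hp).mp hqp
      subst hqe
      have hev := congrArg (Polynomial.eval t) hbez
      simp only [eval_add, eval_mul, eval_C] at hev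
      have hdD : (q : ℤ) ∣ D := by
        rw [← hev]
        exact dvd_add (Dvd.dvd.mul_left hft _) (Dvd.dvd.mul_left hft' _)
      have := Int.natAbs_dvd_natAbs.mpr hdD
      rw [Int.natAbs_natCast] at this
      have h2 := Nat.le_of_dvd (Int.natAbs_pos.mpr hD) this
      omega
    · intro x hx
      simp only [hRdef, mem_insert, mem_singleton] at hx
      rcases hx with rfl | rfl
      · exact mem_range.mpr hp.pos
      · exact mem_range.mpr hrp
    · intro a ha b hb hab
      simp only [hRdef, mem_insert, mem_singleton] at ha hb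
      refine ⟨p, hp, dvd_refl p, ?_, ?_⟩
      · rcases ha with rfl | rfl <;> rcases hb with rfl | rfl
        · exact absurd rfl hab
        · intro hd
          apply hnd
          simpa using hd
        · simpa using hnd
        · exact absurd rfl hab
      · intro t y _ hy hd
        rw [← ZMod.intCast_zmod_eq_zero_iff_dvd] at hd hy
        simp only [eval_one, mul_one, Int.cast_sub, Int.cast_pow] at hd
        have hy' : ((y : ℤ) : ZMod p) ≠ 0 := hy
        obtain ⟨h1, h2⟩ := hw _ hy'
        rcases ha with rfl | rfl <;> rcases hb with rfl | rfl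
        · exact hab rfl
        · apply h2
          rw [hrcasti] at hd
          push_cast at hd
          linear_combination hd
        · apply h1
          rw [hrcasti] at hd
          push_cast at hd
          linear_combination hd
        · exact hab rfl
  have hRne : R.Nonempty := ⟨0, by simp [hRdef]⟩
  have hdeg : (f ^ μ).natDegree = μ * f.natDegree := natDegree_pow f μ
  have hk : 1 ≤ (f ^ μ * 1).natDegree := by
    rw [mul_one, hdeg]
    exact Nat.mul_pos (by omega) hf
  have hl' : 0 < (f ^ μ * 1).leadingCoeff := by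
    rwa [mul_one]
  obtain ⟨c0, hc0, hmain⟩ := main_bound hS hRne hk hl'
  simp only [mul_one] at hmain
  have hk0 : (0 : ℝ) < (((f ^ μ).natDegree : ℕ) : ℝ) := by
    rw [hdeg]
    have : 0 < μ * f.natDegree := Nat.mul_pos (by omega) hf
    exact_mod_cast this
  have hlog : 0 < Real.logb p R.card := by
    rw [hRcard]
    apply Real.logb_pos
    · exact_mod_cast hp.one_lt
    · norm_num
  refine ⟨Real.logb p R.card / ((f ^ μ).natDegree : ℕ), c0, div_pos hlog hk0, hc0, ?_⟩
  intro N hN
  exact hmain N hN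

end Vale.Agent.Lib.P042
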